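import Vale.Agent.P179W.FinalA
import Vale.Agent.P179W.SetupF
import Vale.Agent.P179W.RetE
import Vale.Agent.P179W.RetU
import Vale.Agent.P179W.RetCount
import Vale.Agent.P179W.Wild
import Vale.Agent.P179W.BetaF
import Vale.Agent.P179W.AmbVal2
import Vale.Agent.P179R.Ana

/-!
# The blockwise Alperin weight conjecture

For every prime `p`, every algebraically closed field `k` of characteristic `p`, every finite group
`G` and every block `B` of `kG`, the number of simple `kG`-modules in `B` equals the number of
`G`-conjugacy classes of `p`-weights belonging to `B`.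
-/

open P179B P179W

theorem Vale.Agent.Results.P179.AWCBlockwiseFull.result (p : ℕ) [Fact p.Prime]
    (k : Type*) [Field k] [IsAlgClosed k] [CharP k p] :
    Nonempty (integralClosure ℤ ℂ →+* k) ∧
    ∀ (red : integralClosure ℤ ℂ →+* k) (G : Type*) [Group G] [Finite G]
      (B : MonoidAlgebra k G), IsBlock B →
      numSimpleIn B = numWeightsIn p red B ∧ 0 < numSimpleIn B :=
  awc_of' setup_holds
    (retE_of (retU_of Vale.Agent.P179R.ret valExt_holds tame_holds arch_holds trans_holds)
      count_holds)
    (wild_of (horiz_of dw_holds)) beta_holds p k
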